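import Vale.Agent.P075.Bdl.B1

/-!
The Lipschitz fact for node cuts of a moving slot:
`C ↦ φ(C Cᵀ)` (`φ X = X (1 + X)⁻¹`) is `1`-Lipschitz in the Hilbert-Schmidt norm,
with the version at level `s`.
-/

set_option linter.all false

namespace Vale.Agent.P141.H442

open Matrix Vale.Agent.P075

variable {n m k : Type*} [Fintype n] [DecidableEq n] [Fintype m] [DecidableEq m] [Fintype k]

/-- squared Hilbert-Schmidt norm -/
noncomputable def hs {a b : Type*} [Fintype a] [Fintype b] (M : Matrix a b ℝ) : ℝ :=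
  ∑ i, ∑ j, M i j ^ 2

theorem hs_nonneg {a b : Type*} [Fintype a] [Fintype b] (M : Matrix a b ℝ) : 0 ≤ hs M :=
  Finset.sum_nonneg fun _ _ => Finset.sum_nonneg fun _ _ => sq_nonneg _

theorem hs_transpose {a b : Type*} [Fintype a] [Fintype b] (M : Matrix a b ℝ) :
    hs Mᵀ = hs M := by
  unfold hs
  rw [Finset.sum_comm]
  rfl

theorem hs_eq_trace {a b : Type*} [Fintype a] [Fintype b] (M : Matrix a b ℝ) :
    hs M = (M * Mᵀ).trace := by
  unfold hs Matrix.trace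
  refine Finset.sum_congr rfl fun i _ => ?_
  rw [Matrix.diag_apply, Matrix.mul_apply]
  exact Finset.sum_congr rfl fun j _ => by rw [Matrix.transpose_apply]; ring

theorem hs_eq_trace' {a b : Type*} [Fintype a] [Fintype b] (M : Matrix a b ℝ) :
    hs M = (Mᵀ * M).trace := by
  rw [← hs_transpose, hs_eq_trace, Matrix.transpose_transpose]

theorem hs_cols {a b : Type*} [Fintype a] [Fintype b] (M : Matrix a b ℝ) :
    hs M = ∑ j, (fun i => M i j) ⬝ᵥ (fun i => M i j) := by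
  unfold hs dotProduct
  rw [Finset.sum_comm]
  exact Finset.sum_congr rfl fun j _ => Finset.sum_congr rfl fun i _ => by ring

theorem hs_add_le {a b : Type*} [Fintype a] [Fintype b] (A B : Matrix a b ℝ) :
    hs (A + B) ≤ 2 * hs A + 2 * hs B := by
  unfold hs
  rw [Finset.mul_sum, Finset.mul_sum, ← Finset.sum_add_distrib]
  refine Finset.sum_le_sum fun i _ => ?_
  rw [Finset.mul_sum, Finset.mul_sum, ← Finset.sum_add_distrib]
  refine Finset.sum_le_sum fun j _ => ?_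
  rw [Matrix.add_apply]
  nlinarith [sq_nonneg (A i j - B i j)]

theorem hs_smul {a b : Type*} [Fintype a] [Fintype b] (c : ℝ) (A : Matrix a b ℝ) :
    hs (c • A) = c ^ 2 * hs A := by
  unfold hs
  rw [Finset.mul_sum]
  refine Finset.sum_congr rfl fun i _ => ?_
  rw [Finset.mul_sum]
  refine Finset.sum_congr rfl fun j _ => ?_
  rw [Matrix.smul_apply, smul_eq_mul]; ring

/-- a pointwise bound on columns passes to the Hilbert-Schmidt norm of a product -/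
theorem hs_mul_le_of_vec {a b c : Type*} [Fintype a] [Fintype b] [Fintype c]
    (M : Matrix a b ℝ) (B : Matrix b c ℝ) {κ : ℝ}
    (h : ∀ w : b → ℝ, (M *ᵥ w) ⬝ᵥ (M *ᵥ w) ≤ κ * (w ⬝ᵥ w)) :
    hs (M * B) ≤ κ * hs B := by
  rw [hs_cols, hs_cols, Finset.mul_sum]
  exact Finset.sum_le_sum fun j _ => h fun i => B i j

/-- `|P C w|² ≤ |w|²/4`, `P = (1 + C Cᵀ)⁻¹` -/
theorem res_C_vec (C : Matrix n m ℝ) (w : m → ℝ) :
    ((res (C * Cᵀ) * C) *ᵥ w) ⬝ᵥ ((res (C * Cᵀ) * C) *ᵥ w) ≤ (1 / 4) * (w ⬝ᵥ w) := by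
  have hX : (C * Cᵀ).PosSemidef := psd_mul_transpose C
  set a := (res (C * Cᵀ) * C) *ᵥ w with ha
  have h1 : (1 + C * Cᵀ) *ᵥ a = C *ᵥ w := by
    rw [ha, Matrix.mulVec_mulVec, ← Matrix.mul_assoc, one_add_mul_res hX, Matrix.one_mul]
  set b := Cᵀ *ᵥ a with hb
  have h2 : a + C *ᵥ b = C *ᵥ w := by
    rw [← h1, Matrix.add_mulVec, Matrix.one_mulVec, hb, Matrix.mulVec_mulVec]
  have h3 : a ⬝ᵥ (C *ᵥ b) = b ⬝ᵥ b := by
    rw [Matrix.dotProduct_mulVec, ← Matrix.mulVec_transpose]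
  have h4 : a ⬝ᵥ (C *ᵥ w) = b ⬝ᵥ w := by
    rw [Matrix.dotProduct_mulVec, ← Matrix.mulVec_transpose]
  have h5 : a ⬝ᵥ a + b ⬝ᵥ b = b ⬝ᵥ w := by
    rw [← h3, ← h4, ← h2, dotProduct_add]
  have h6 : 0 ≤ (b - (1 / 2 : ℝ) • w) ⬝ᵥ (b - (1 / 2 : ℝ) • w) :=
    Finset.sum_nonneg fun i _ => mul_self_nonneg _
  have h7 : (b - (1 / 2 : ℝ) • w) ⬝ᵥ (b - (1 / 2 : ℝ) • w)
      = b ⬝ᵥ b - b ⬝ᵥ w + (1 / 4) * (w ⬝ᵥ w) := by
    rw [sub_dotProduct, dotProduct_sub, dotProduct_sub, smul_dotProduct, smul_dotProduct,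
      dotProduct_smul, dotProduct_smul, dotProduct_comm w b]
    simp only [smul_eq_mul]
    ring
  linarith

/-- the resolvent is a contraction -/
theorem res_vec {X : Matrix n n ℝ} (hX : X.PosSemidef) (w : n → ℝ) :
    (res X *ᵥ w) ⬝ᵥ (res X *ᵥ w) ≤ w ⬝ᵥ w := by
  set a := res X *ᵥ w with ha
  have h1 : a + X *ᵥ a = w := by
    have : (1 + X) *ᵥ a = w := by
      rw [ha, Matrix.mulVec_mulVec, one_add_mul_res hX, Matrix.one_mulVec]
    rw [← this, Matrix.add_mulVec, Matrix.one_mulVec]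
  have h2 : 0 ≤ a ⬝ᵥ (X *ᵥ a) := by
    have := hX.dotProduct_mulVec_nonneg a
    simpa using this
  have h3 : w ⬝ᵥ w = a ⬝ᵥ a + 2 * (a ⬝ᵥ (X *ᵥ a)) + (X *ᵥ a) ⬝ᵥ (X *ᵥ a) := by
    conv_lhs => rw [← h1]
    rw [add_dotProduct, dotProduct_add, dotProduct_add, dotProduct_comm (X *ᵥ a) a]
    ring
  have h4 : 0 ≤ (X *ᵥ a) ⬝ᵥ (X *ᵥ a) := Finset.sum_nonneg fun i _ => mul_self_nonneg _
  linarith

theorem hs_res_mul {X : Matrix n n ℝ} (hX : X.PosSemidef) (B : Matrix n k ℝ) :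
    hs (res X * B) ≤ hs B := by
  have := hs_mul_le_of_vec (res X) B (κ := 1) (fun w => by rw [one_mul]; exact res_vec hX w)
  linarith

theorem hs_res_C_mul (C : Matrix n m ℝ) (B : Matrix m k ℝ) :
    hs (res (C * Cᵀ) * C * B) ≤ (1 / 4) * hs B :=
  hs_mul_le_of_vec _ B (res_C_vec C)

/-- **Lipschitz fact.** `|φ(C' C'ᵀ) - φ(C Cᵀ)|_HS ≤ |C' - C|_HS`. -/
theorem phi_lip (C C' : Matrix n m ℝ) :
    hs (phi (C' * C'ᵀ) - phi (C * Cᵀ)) ≤ hs (C' - C) := by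
  have hX : (C * Cᵀ).PosSemidef := psd_mul_transpose C
  have hX' : (C' * C'ᵀ).PosSemidef := psd_mul_transpose C'
  set P := res (C * Cᵀ) with hP
  set P' := res (C' * C'ᵀ) with hP'
  set E := C' - C with hE
  have key : phi (C' * C'ᵀ) - phi (C * Cᵀ) = P * E * (P' * C')ᵀ + P * C * (P' * E)ᵀ := by
    have e1 : (P' * C')ᵀ = C'ᵀ * P' := by
      rw [transpose_mul, hP', res_symm hX']
    have e2 : (P' * E)ᵀ = (C'ᵀ - Cᵀ) * P' := by
      rw [transpose_mul, hP', res_symm hX', hE, transpose_sub]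
    have f1 : C' * C'ᵀ * P' = 1 - P' := mul_res hX'
    have f2 : P * (C * Cᵀ) = 1 - P := res_mul hX
    have f3 : phi (C' * C'ᵀ) - phi (C * Cᵀ) = P - P' := by
      rw [phi, phi]; noncomm_ring
    rw [f3, e1, e2]
    have f4 : P * E * (C'ᵀ * P') + P * C * ((C'ᵀ - Cᵀ) * P')
        = P * (C' * C'ᵀ * P') - P * (C * Cᵀ) * P' := by
      rw [hE]
      simp only [Matrix.mul_sub, Matrix.sub_mul, Matrix.mul_assoc]
      abel
    rw [f4, f1, f2]
    noncomm_ring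
  have b1 : hs (P * E * (P' * C')ᵀ) ≤ (1 / 4) * hs E := by
    have : (P * E * (P' * C')ᵀ) = (P' * C' * (P * E)ᵀ)ᵀ := by
      rw [transpose_mul (P' * C') (P * E)ᵀ, transpose_transpose]
    rw [this, hs_transpose]
    refine (hs_res_C_mul C' _).trans ?_
    rw [hs_transpose]
    have := hs_res_mul hX E
    linarith
  have b2 : hs (P * C * (P' * E)ᵀ) ≤ (1 / 4) * hs E := by
    refine (hs_res_C_mul C _).trans ?_
    rw [hs_transpose]
    have := hs_res_mul hX' E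
    linarith
  rw [key]
  have := hs_add_le (P * E * (P' * C')ᵀ) (P * C * (P' * E)ᵀ)
  linarith

/-- the same at level `s` : `φ_s X = s² φ(X / s²)` -/
theorem phi_lip_level {s : ℝ} (hs0 : 0 < s) (C C' : Matrix n m ℝ) :
    hs (s ^ 2 • phi ((s ^ 2)⁻¹ • (C' * C'ᵀ)) - s ^ 2 • phi ((s ^ 2)⁻¹ • (C * Cᵀ)))
      ≤ s ^ 2 * hs (C' - C) := by
  have e : ∀ D : Matrix n m ℝ, (s ^ 2)⁻¹ • (D * Dᵀ) = (s⁻¹ • D) * (s⁻¹ • D)ᵀ := by
    intro D
    rw [transpose_smul, Matrix.smul_mul, Matrix.mul_smul, smul_smul]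
    congr 1
    rw [pow_two, mul_inv]
  have h := phi_lip (s⁻¹ • C) (s⁻¹ • C')
  rw [← e, ← e, ← smul_sub, hs_smul] at h
  rw [← smul_sub, hs_smul]
  have hs2 : (0:ℝ) < s ^ 2 := by positivity
  calc (s ^ 2) ^ 2 * hs (phi ((s ^ 2)⁻¹ • (C' * C'ᵀ)) - phi ((s ^ 2)⁻¹ • (C * Cᵀ)))
      ≤ (s ^ 2) ^ 2 * (s⁻¹ ^ 2 * hs (C' - C)) := by
        exact mul_le_mul_of_nonneg_left h (by positivity)
    _ = s ^ 2 * hs (C' - C) := by
        field_simp

/-- increments: if two slots differ by `E`, their cut Grams differ in every outer mean by the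
l2 size of the difference (`w` any weights, `∑ w ≤ 1`). -/
theorem mean_lip {ι : Type*} (S : Finset ι) (w : ι → ℝ) (hw : ∀ i ∈ S, 0 ≤ w i)
    (hw1 : ∑ i ∈ S, w i ≤ 1) (C C' : ι → Matrix n m ℝ) {s : ℝ} (hs0 : 0 < s) :
    hs (∑ i ∈ S, w i • (s ^ 2 • phi ((s ^ 2)⁻¹ • (C' i * (C' i)ᵀ))
        - s ^ 2 • phi ((s ^ 2)⁻¹ • (C i * (C i)ᵀ))))
      ≤ s ^ 2 * ∑ i ∈ S, w i * hs (C' i - C i) := by
  set D : ι → Matrix n n ℝ := fun i => s ^ 2 • phi ((s ^ 2)⁻¹ • (C' i * (C' i)ᵀ))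
        - s ^ 2 • phi ((s ^ 2)⁻¹ • (C i * (C i)ᵀ)) with hD
  have h1 : hs (∑ i ∈ S, w i • D i) ≤ ∑ i ∈ S, w i * hs (D i) := by
    unfold hs
    have : ∀ a b, (∑ i ∈ S, w i • D i) a b ^ 2 ≤ ∑ i ∈ S, w i * (D i a b) ^ 2 := by
      intro a b
      have e : (∑ i ∈ S, w i • D i) a b = ∑ i ∈ S, w i * D i a b := by
        rw [Matrix.sum_apply]
        exact Finset.sum_congr rfl fun i _ => by rw [Matrix.smul_apply, smul_eq_mul]
      rw [e]
      have cs := Finset.sum_mul_sq_le_sq_mul_sq S (fun i => Real.sqrt (w i))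
        (fun i => Real.sqrt (w i) * D i a b)
      have e1 : ∑ i ∈ S, Real.sqrt (w i) * (Real.sqrt (w i) * D i a b)
          = ∑ i ∈ S, w i * D i a b :=
        Finset.sum_congr rfl fun i hi => by
          rw [← mul_assoc, Real.mul_self_sqrt (hw i hi)]
      have e2 : ∑ i ∈ S, Real.sqrt (w i) ^ 2 = ∑ i ∈ S, w i :=
        Finset.sum_congr rfl fun i hi => Real.sq_sqrt (hw i hi)
      have e3 : ∑ i ∈ S, (Real.sqrt (w i) * D i a b) ^ 2 = ∑ i ∈ S, w i * (D i a b) ^ 2 :=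
        Finset.sum_congr rfl fun i hi => by rw [mul_pow, Real.sq_sqrt (hw i hi)]
      rw [e1, e2, e3] at cs
      have hn : 0 ≤ ∑ i ∈ S, w i * (D i a b) ^ 2 :=
        Finset.sum_nonneg fun i hi => mul_nonneg (hw i hi) (sq_nonneg _)
      nlinarith
    calc ∑ a, ∑ b, (∑ i ∈ S, w i • D i) a b ^ 2
        ≤ ∑ a, ∑ b, ∑ i ∈ S, w i * (D i a b) ^ 2 :=
          Finset.sum_le_sum fun a _ => Finset.sum_le_sum fun b _ => this a b
      _ = ∑ i ∈ S, w i * ∑ a, ∑ b, (D i a b) ^ 2 := by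
          rw [Finset.sum_congr rfl (fun a _ => Finset.sum_comm), Finset.sum_comm]
          refine Finset.sum_congr rfl fun i _ => ?_
          rw [Finset.mul_sum]
          exact Finset.sum_congr rfl fun a _ => by rw [Finset.mul_sum]
  refine h1.trans ?_
  rw [Finset.mul_sum]
  refine Finset.sum_le_sum fun i hi => ?_
  have := phi_lip_level hs0 (C i) (C' i)
  calc w i * hs (D i) ≤ w i * (s ^ 2 * hs (C' i - C i)) :=
        mul_le_mul_of_nonneg_left this (hw i hi)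
    _ = s ^ 2 * (w i * hs (C' i - C i)) := by ring

end Vale.Agent.P141.H442
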